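import Vale.Agent.P181.MD.H514.Peel
import Vale.Agent.P181.T4.Asm
import Vale.Agent.P181.TL.H214.UpB
import Vale.Agent.P181.H539.Growth
import Vale.Agent.P181.H539.Upper

set_option autoImplicit false

/-!
# P181, RH [CORE]: two rows peeled
-/

namespace Vale.Agent.P181.RH.H752

open Finset Vale.Agent.P181 Vale.Agent.P181.H280 Vale.Agent.P181.H463

lemma ex_succ {n : ℕ} (η : Fin (n + 1) → ℕ) (k : ℕ) :
    T4.ex (fun i : Fin n => η i.succ) k = T4.ex η (k + 1) := by
  unfold T4.ex
  by_cases h : k < n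
  · rw [dif_pos h, dif_pos (by omega : k + 1 < n + 1)]
    rfl
  · rw [dif_neg h, dif_neg (by omega)]

/-- **Two rows peeled**: all the hooks of the two first rows except one are at least `x`. -/
theorem peel2 {n M x : ℕ} (η : Fin (n + 2) → ℕ) (hn : n ≤ M) (hη : Antitone η)
    (hx : x + T4.ex η 2 ≤ η 1) :
    x ^ (2 * M) * gt n M (fun i => η i.succ.succ) ≤
      gt (n + 2) (M + 2) η * ((M + 1).factorial * M.factorial) := by
  have hη' : Antitone (fun i : Fin (n + 1) => η i.succ) :=
    fun i j h => hη (Fin.succ_le_succ_iff.2 h)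
  have h1 := MD.H514.peel (n + 1) (M + 1) η (Nat.succ_le_succ hn) hη
  have h2 := MD.H514.peel n M (fun i : Fin (n + 1) => η i.succ) hn hη'
  have h01 : η 1 ≤ η 0 := hη (Fin.zero_le _)
  have hP2 : x ^ M ≤ ∏ j ∈ range M, ((fun i : Fin (n + 1) => η i.succ) 0 -
      T4.ex (fun i : Fin (n + 1) => η i.succ) (j + 1) + (j + 1)) := by
    rw [← Finset.card_range M, ← Finset.prod_const, Finset.card_range]
    refine Finset.prod_le_prod' fun j _ => ?_
    rw [ex_succ]
    have h3 : T4.ex η (j + 1 + 1) ≤ T4.ex η 2 := T4.ex_anti hη (by omega)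
    have h4 : (fun i : Fin (n + 1) => η i.succ) 0 = η 1 := rfl
    rw [h4]
    omega
  have hP1 : x ^ M ≤ ∏ j ∈ range (M + 1), (η 0 - T4.ex η (j + 1) + (j + 1)) := by
    rw [Finset.prod_range_succ']
    have h5 : x ^ M ≤ ∏ j ∈ range M, (η 0 - T4.ex η (j + 1 + 1) + (j + 1 + 1)) := by
      rw [← Finset.card_range M, ← Finset.prod_const, Finset.card_range]
      refine Finset.prod_le_prod' fun j _ => ?_
      have h3 : T4.ex η (j + 1 + 1) ≤ T4.ex η 2 := T4.ex_anti hη (by omega)
      omega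
    calc x ^ M = x ^ M * 1 := (mul_one _).symm
      _ ≤ _ := Nat.mul_le_mul h5 (by omega)
  calc x ^ (2 * M) * gt n M (fun i => η i.succ.succ)
      = gt n M (fun i => η i.succ.succ) * x ^ M * x ^ M := by
        rw [two_mul, pow_add]
        ring
    _ ≤ gt n M (fun i => η i.succ.succ) *
        (∏ j ∈ range M, ((fun i : Fin (n + 1) => η i.succ) 0 -
          T4.ex (fun i : Fin (n + 1) => η i.succ) (j + 1) + (j + 1))) *
        (∏ j ∈ range (M + 1), (η 0 - T4.ex η (j + 1) + (j + 1))) :=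
        Nat.mul_le_mul (Nat.mul_le_mul_left _ hP2) hP1
    _ = (gt (n + 1) (M + 1) (fun i : Fin (n + 1) => η i.succ) * M.factorial) *
        (∏ j ∈ range (M + 1), (η 0 - T4.ex η (j + 1) + (j + 1))) := by
        rw [h2]
    _ = (gt (n + 1) (M + 1) (fun i : Fin (n + 1) => η i.succ) *
        (∏ j ∈ range (M + 1), (η 0 - T4.ex η (j + 1) + (j + 1)))) * M.factorial := by ring
    _ = (gt (n + 2) (M + 2) η * (M + 1).factorial) * M.factorial := by
        rw [← h1]
    _ = _ := by ring

/-- The upper bound by the rows from row three on. -/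
theorem up_gt (a b n : ℕ) {lam : Fin (n + 2) → ℕ} (hlam : Antitone lam) :
    plethMult a b (n + 2) lam ≤ (a + b).choose a * gt n a (fun i => lam i.succ.succ) := by
  refine (TL.H214.upB a b n lam).trans (Nat.mul_le_mul_left _ ?_)
  exact Vale.Agent.P181.H539.finrank_HW_le_gt n a
    (fun i j h => hlam (Fin.succ_le_succ_iff.2 (Fin.succ_le_succ_iff.2 h)))

end Vale.Agent.P181.RH.H752
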