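import Vale.Agent.P181.RH.Defs
import Vale.Agent.P181.RH.H752.Peel2
import Vale.Agent.P181.RG.H968.Core

set_option autoImplicit false

/-!
# P181, RH [CORE]: from [PAR], [LOW], [NUM], [HALF]
-/

namespace Vale.Agent.P181.RH.H752

open Finset Vale.Agent.P181 Vale.Agent.P181.H280 Vale.Agent.P181.H463

lemma sum_ff {m f₀ f₂ : ℕ} (hm : 2 ≤ m) : ∑ r : Fin m, ff m f₀ f₂ r ≤ 2 * f₀ + m * f₂ := by
  have h1 : ∀ r : Fin m, ff m f₀ f₂ r ≤ (if (r : ℕ) < 2 then f₀ else 0) + f₂ := by
    intro r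
    unfold ff
    split_ifs <;> omega
  refine (Finset.sum_le_sum fun r _ => h1 r).trans ?_
  rw [Finset.sum_add_distrib, RG.H968.sum_top hm, Finset.sum_const, Finset.card_univ,
    Fintype.card_fin, smul_eq_mul]

/-- **[CORE]** -/
theorem coreRH (hPar : ParRH) (hLow : LowRH) (hNum : NumRH) (hHalf : RG.HalfRG) : CoreRH := by
  intro δ hδ hδ1
  obtain ⟨X₁, hPar⟩ := hPar δ hδ hδ1
  obtain ⟨K₁, X₂, hNum⟩ := hNum δ hδ hδ1
  refine ⟨K₁ + 100, max X₁ (max X₂ 2), ?_⟩
  intro a b X m n lam hX hXa hlam hsum hna hab hbX hm hmX hmn hgap hrow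
  have hX1 : X₁ ≤ X := le_trans (le_max_left _ _) hX
  have hX2 : X₂ ≤ X := le_trans (le_trans (le_max_left _ _) (le_max_right _ _)) hX
  have hX3 : 2 ≤ X := le_trans (le_trans (le_max_right _ _) (le_max_right _ _)) hX
  have hX0 : 0 < X := by omega
  have hXa100 : X ^ 100 ≤ a := (Nat.pow_le_pow_right hX0 (by omega)).trans hXa
  have ha0 : 0 < a := lt_of_lt_of_le (by positivity) hXa100
  obtain ⟨u, D1, D2, R2, R3, f₀, f₂, F₀, F₂, T, s, hnd, hub, huδ, hN, hN3⟩ :=
    hPar a b X m hX1 hXa100 hab hbX hm hmX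
  set N2 := u * D1 + R2 with hN2d
  set N3 := u * D2 + R3 with hN3d
  obtain ⟨-, hu1, -, -, -, -, -, -, -, -, -, h8, -, -, -, -⟩ := id hnd
  -- `u`
  have hua : a + 2 ≤ u := by
    have h1 : (a : ℝ) + 2 ≤ u := by
      have h2 : 0 ≤ δ / 2 * a := by positivity
      linarith
    exact_mod_cast h1
  have hubb : u ≤ b := by omega
  have hsf := sum_ff (f₀ := f₀) (f₂ := f₂) (by omega : 2 ≤ m)
  have hb2u : b ≤ 2 * u := by omega
  -- `X ^ K a`
  have hK14 : 2 * (X ^ 14 * a) ≤ X ^ (K₁ + 100) * a := by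
    calc 2 * (X ^ 14 * a) = 2 * X ^ 14 * a := by ring
      _ ≤ X * X ^ 14 * a := Nat.mul_le_mul_right _ (Nat.mul_le_mul_right _ hX3)
      _ = X ^ 15 * a := by ring
      _ ≤ X ^ (K₁ + 100) * a :=
        Nat.mul_le_mul_right _ (Nat.pow_le_pow_right hX0 (by omega))
  have hK3 : 2 * N3 ≤ X ^ (K₁ + 100) * a := le_trans (by omega) hK14
  have hKK : X ^ K₁ * a ≤ X ^ (K₁ + 100) * a :=
    Nat.mul_le_mul_right _ (Nat.pow_le_pow_right hX0 (by omega))
  -- the gaps after row two
  have hgap2 : ∀ i : Fin (n + 2), 2 ≤ (i : ℕ) → 2 * (N2 + N3) + lam i ≤ lam 1 := by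
    intro i hi
    have h1 := hgap i hi
    have h2 : X * (2 * (N2 + N3) + lam i) ≤ X * lam 1 := by
      calc X * (2 * (N2 + N3) + lam i) = 2 * X * (N2 + N3) + X * lam i := by ring
        _ ≤ a ^ 2 + X * lam i := Nat.add_le_add_right hN _
        _ ≤ X * lam 1 := h1
    exact Nat.le_of_mul_le_mul_left h2 hX0
  have hi2 : 2 < n + 2 := by omega
  have h12 := hgap2 ⟨2, hi2⟩ le_rfl
  have hle1 : ∀ i : Fin (n + 2), (i : ℕ) < 2 → lam 1 ≤ lam i := by
    intro i hi
    apply hlam
    rw [Fin.le_def]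
    have : ((1 : Fin (n + 2)) : ℕ) = 1 := rfl
    omega
  set η : Fin (n + 2) → ℕ := fun i => lam i - ((if (i : ℕ) < 2 then N2 else 0) +
    (if (i : ℕ) < m then N3 else 0)) with hηd
  have hle : ∀ i : Fin (n + 2), (if (i : ℕ) < 2 then N2 else 0) +
      (if (i : ℕ) < m then N3 else 0) ≤ lam i := by
    intro i
    by_cases h2 : (i : ℕ) < 2
    · rw [if_pos h2, if_pos (by omega)]
      have := hle1 i h2
      omega
    · rw [if_neg h2]
      by_cases h3 : (i : ℕ) < m
      · rw [if_pos h3]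
        have := (hrow i h3).1
        omega
      · rw [if_neg h3]
        exact Nat.zero_le _
  have hηl : ∀ i : Fin (n + 2), (if (i : ℕ) < 2 then N2 else 0) +
      (if (i : ℕ) < m then N3 else 0) + η i = lam i := by
    intro i
    have := hle i
    simp only [hηd]
    omega
  have hη0 : ∀ i : Fin (n + 2), (i : ℕ) < 2 → η i + N2 + N3 = lam i := by
    intro i hi
    have := hηl i
    rw [if_pos hi, if_pos (by omega)] at this
    omega
  have hη1 : ∀ i : Fin (n + 2), 2 ≤ (i : ℕ) → (i : ℕ) < m → η i + N3 = lam i := by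
    intro i hi hi'
    have := hηl i
    rw [if_neg (by omega), if_pos hi'] at this
    omega
  have hη2 : ∀ i : Fin (n + 2), m ≤ (i : ℕ) → η i = lam i := by
    intro i hi
    have := hηl i
    rw [if_neg (by omega), if_neg (by omega)] at this
    omega
  have hη : Antitone η := by
    intro i j hij
    have h1 := hlam hij
    have hij' : (i : ℕ) ≤ (j : ℕ) := hij
    by_cases hj2 : (j : ℕ) < 2
    · have := hη0 i (by omega)
      have := hη0 j hj2
      omega
    · have hj2' : 2 ≤ (j : ℕ) := by omega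
      have hgj := hgap2 j hj2'
      by_cases hi2' : (i : ℕ) < 2
      · have := hη0 i hi2'
        have := hle1 i hi2'
        by_cases hjm : (j : ℕ) < m
        · have := hη1 j hj2' hjm
          omega
        · have := hη2 j (by omega)
          omega
      · by_cases him : (i : ℕ) < m
        · have := hη1 i (by omega) him
          by_cases hjm : (j : ℕ) < m
          · have := hη1 j hj2' hjm
            omega
          · have := hη2 j (by omega)
            have := (hrow i him).2 j (by omega)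
            omega
        · have := hη2 i (by omega)
          have := hη2 j (by omega)
          omega
  -- the two first rows
  have e1 : ((1 : Fin (n + 2)) : ℕ) = 1 := rfl
  have hη1' := hη0 1 (by rw [e1]; omega)
  have hη2' := hη1 ⟨2, hi2⟩ le_rfl (by show 2 < m; omega)
  set G := η 1 - η ⟨2, hi2⟩ with hG
  have hG1 : G + η ⟨2, hi2⟩ = η 1 := by
    have : η ⟨2, hi2⟩ ≤ η 1 := by omega
    omega
  have hGi : ∀ i : Fin (n + 2), 2 ≤ (i : ℕ) → G + η i ≤ η 1 := by
    intro i hi
    have h1 : η i ≤ η ⟨2, hi2⟩ := hη (by rw [Fin.le_def]; exact hi)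
    omega
  have hGa : a ^ 2 ≤ 2 * X * (G + 1) := by
    have h1 := hgap ⟨2, hi2⟩ le_rfl
    have h2 : X * lam 1 + X * N3 = X * G + X * lam ⟨2, hi2⟩ + X * N2 + X * N3 := by
      rw [← hη1', ← hη2', ← hG1]
      ring
    have h3 : 2 * X * (N2 + N3) = 2 * (X * N2) + 2 * (X * N3) := by ring
    have h4 : 2 * X * (G + 1) = 2 * (X * G) + 2 * X := by ring
    rw [h3] at hN
    rw [h4]
    omega
  have hlow := hLow n a b u m D1 D2 R2 R3 f₀ f₂ F₀ F₂ T s G lam η hnd hub hmn (by omega)
    (by omega) hsum hη hηl hGi (by omega)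
  -- the rows from row three on
  have hηs : Antitone (fun i : Fin n => η i.succ.succ) :=
    fun i j h => hη (Fin.succ_le_succ_iff.2 (Fin.succ_le_succ_iff.2 h))
  have hhalf := hHalf n (m - 2) a N3 (fun i => lam i.succ.succ) (fun i => η i.succ.succ) hηs
    (by omega) (by omega) (fun i => by
      have hv : ((i.succ.succ : Fin (n + 2)) : ℕ) = (i : ℕ) + 2 := rfl
      show lam i.succ.succ = η i.succ.succ + _
      by_cases h : (i : ℕ) < m - 2
      · rw [if_pos h]
        exact (hη1 _ (by omega) (by omega)).symm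
      · rw [if_neg h]
        exact (hη2 _ (by omega)).symm) (by
      intro i hi
      have hv : ((i.succ.succ : Fin (n + 2)) : ℕ) = (i : ℕ) + 2 := rfl
      have h1 := hη1 i.succ.succ (by omega) (by omega)
      have h2 := hrow i.succ.succ (by omega)
      refine ⟨?_, ?_⟩
      · show N3 ≤ η i.succ.succ
        have := h2.1
        omega
      · intro j hj
        show N3 + η j.succ.succ ≤ η i.succ.succ
        have hw : ((j.succ.succ : Fin (n + 2)) : ℕ) = (j : ℕ) + 2 := rfl
        have h3 := hη2 j.succ.succ (by omega)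
        have h4 := h2.2 j.succ.succ (by omega)
        omega)
  -- the last long row
  have hm1 : m - 1 < n + 2 := by omega
  have hym := hη1 ⟨m - 1, hm1⟩ (by show 2 ≤ m - 1; omega) (by show m - 1 < m; omega)
  set y := η ⟨m - 1, hm1⟩ with hy
  have hy2 : X ^ K₁ * a ≤ 2 * y := by
    have h1 := (hrow ⟨m - 1, hm1⟩ (by show m - 1 < m; omega)).1
    omega
  have hnum := hNum a b X m u y G hX2 hXa100 huδ hubb hb2u hbX hm hmX hy2 hGa
  have hgrow := Vale.Agent.P181.H539.gt_growth_rows (n := n) (a := a) (N := u - 2) (l := m - 2)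
    (n0 := y) (by omega) ha0 (by omega) hηs (by omega) (fun i hi => hη (by
      show (i : ℕ) + 2 ≤ m - 1
      omega))
  have hup := up_gt a b n hlam
  -- the end
  set P : ℕ := (2 * a * b) ^ (u - 1) * (u.factorial * (u - 2).factorial) with hP
  set g : ℕ := gt n a (fun i : Fin n => η i.succ.succ) with hg
  set C : ℕ := (a + b).choose a with hC
  have hup' : plethMult a b (n + 2) lam ≤ C * (2 ^ ((m - 2) * a) * g) :=
    hup.trans (Nat.mul_le_mul_left _ hhalf)
  have hupR : (plethMult a b (n + 2) lam : ℝ) ≤ (C : ℝ) * (2 ^ ((m - 2) * a) * (g : ℝ)) := by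
    exact_mod_cast hup'
  have hb0 : 0 < b := by omega
  have hP0 : 0 < P := by
    rw [hP]
    have := Nat.factorial_pos u
    have := Nat.factorial_pos (u - 2)
    positivity
  have hlowR : (G : ℝ) ^ (2 * (u - 2)) * (gt n (u - 2) (fun i : Fin n => η i.succ.succ) : ℝ) ≤
      (P : ℝ) * (plethMult b a (n + 2) lam : ℝ) := by
    exact_mod_cast hlow
  have hnum' : (C : ℝ) * 2 ^ ((m - 2) * a) * (P : ℝ) ≤ (G : ℝ) ^ (2 * (u - 2)) *
      (1 + (y : ℝ) / (u - 2 : ℕ)) ^ ((m - 2) * (u - 2 - a)) := by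
    refine le_trans (le_of_eq ?_) hnum
    rw [hC, hP]
    push_cast
    ring
  have key : (P : ℝ) * (plethMult a b (n + 2) lam : ℝ) ≤
      (P : ℝ) * (plethMult b a (n + 2) lam : ℝ) := by
    calc (P : ℝ) * (plethMult a b (n + 2) lam : ℝ)
        ≤ (P : ℝ) * ((C : ℝ) * (2 ^ ((m - 2) * a) * (g : ℝ))) :=
          mul_le_mul_of_nonneg_left hupR (Nat.cast_nonneg _)
      _ = ((C : ℝ) * 2 ^ ((m - 2) * a) * (P : ℝ)) * (g : ℝ) := by ring
      _ ≤ ((G : ℝ) ^ (2 * (u - 2)) *
          (1 + (y : ℝ) / (u - 2 : ℕ)) ^ ((m - 2) * (u - 2 - a))) * (g : ℝ) :=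
          mul_le_mul_of_nonneg_right hnum' (Nat.cast_nonneg _)
      _ = (G : ℝ) ^ (2 * (u - 2)) * ((g : ℝ) *
          (1 + (y : ℝ) / (u - 2 : ℕ)) ^ ((m - 2) * (u - 2 - a))) := by ring
      _ ≤ (G : ℝ) ^ (2 * (u - 2)) * (gt n (u - 2) (fun i : Fin n => η i.succ.succ) : ℝ) :=
          mul_le_mul_of_nonneg_left hgrow (by positivity)
      _ ≤ _ := hlowR
  have hPR : (0 : ℝ) < P := by exact_mod_cast hP0
  exact_mod_cast le_of_mul_le_mul_left key hPR

end Vale.Agent.P181.RH.H752
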