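import Vale.Agent.P181.RH.Defs
import Vale.Agent.P181.RV.Defs

set_option autoImplicit false

/-!
# P181, RH [CORE-A]: from the core of RV
-/

namespace Vale.Agent.P181.RH.H752

open Finset Vale.Agent.P181 Vale.Agent.P181.H280 Vale.Agent.P181.H463

/-- **[CORE-A]** -/
theorem coreRA (h : RV.CorV) : CoreRA := by
  intro δ hδ _
  obtain ⟨q, hq⟩ := exists_nat_ge (1 / δ)
  have hqR : (0 : ℝ) < q := lt_of_lt_of_le (by positivity) hq
  have hq1 : 1 ≤ q := by
    have : 0 < q := by exact_mod_cast hqR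
    omega
  obtain ⟨a₀, ha₀⟩ := h q hq1
  refine ⟨200 * q, max (2 * q) (max a₀ 3), ?_⟩
  intro a b X m n lam hX hXa hlam hsum hna hab hbX hm hmX hmn hrow
  have hX1 : 2 * q ≤ X := le_trans (le_max_left _ _) hX
  have hX2 : a₀ ≤ X := le_trans (le_trans (le_max_left _ _) (le_max_right _ _)) hX
  have hX3 : 3 ≤ X := le_trans (le_trans (le_max_right _ _) (le_max_right _ _)) hX
  have hXa1 : X ≤ a := by
    refine le_trans ?_ hXa
    calc X = X ^ 1 := (pow_one X).symm
      _ ≤ X ^ (200 * q) := Nat.pow_le_pow_right (by omega) (by omega)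
  refine ha₀ a b X m n lam (hX2.trans hXa1) hlam hsum hna hX1 hXa ?_ hbX hm hmn
    (hmX.trans (by nlinarith)) hrow
  have h1 : (1 : ℝ) ≤ q * δ := by
    rw [div_le_iff₀ hδ] at hq
    exact hq
  have h2 : ((q : ℝ) + 1) * a ≤ q * b := by
    have h3 : (q : ℝ) * ((1 + δ) * a) ≤ q * b := mul_le_mul_of_nonneg_left hab hqR.le
    have h4 : (1 : ℝ) * a ≤ q * δ * a := mul_le_mul_of_nonneg_right h1 (Nat.cast_nonneg a)
    linarith
  exact_mod_cast h2

end Vale.Agent.P181.RH.H752
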